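import Vale.Agent.P193.Full.Core.CovMoves.Setup
import Vale.Agent.P193.Full.Core.Inst.Rig
import Vale.Agent.P193.Full.Core.Inst.PushEquiv
import Vale.Agent.P193.Full.Core.Inst.ZTree
import Vale.Agent.P193.Full.Core.Inst.Closed

/-! The guessed-value maps carry the field of an atom of their domain to the field of the atom
with a moved inner translation: a letter in front puts its translation first, every other edge out
of the guess state absorbs the map, and at the guess state itself the map fixes every base. -/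

namespace Vale.Agent.P193.Core.Inst

open Calc Facts

open Classical

set_option linter.unusedSectionVars false

variable {d : Data} [DecidableEq d.M.A] {F : Calc.Frame (Point d)}

variable (F) in
/-- The word of a guessed-value map. -/
noncomputable def uWord (j : Fin 3) : F.Free := tr F (uG j) (atS .guess ∩ tagS)

section Core

variable (hG : Good d) (hF : IsCore F)
include hG hF

/-- The word of a guessed-value map moves its domain as the map does. -/
theorem tr_uG (j : Fin 3) :
    IsTr F (uG (d := d) j) (atS .guess ∩ tagS) (uWord F j) := by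
  obtain ⟨x, τ, hτ, e⟩ := exists_tr_state hG hF (gen_uG j) .guess .guess (by
    rintro x ⟨y, -, h1, -, h3⟩
    simp only at h3
    subst h3
    exact h1)
  exact tr_spec ⟨x, τ, hτ, fun s hs => e s hs.1⟩

theorem exists_u_perm (j : Fin 3) : ∃ τ : Equiv.Perm (Point d), F.IsDiag (uWord F j) τ ∧
    ∀ s ∈ atS .guess ∩ tagS, τ s = { s with g := s.g * proj j (guessVal d s.σ) } := by
  obtain ⟨τ, hτ, e⟩ := tr_uG hG hF j
  exact ⟨τ, hτ, fun s hs => e s hs _ (uG_apply j hs.1 hs.2)⟩

theorem exists_edge_perm (e : OEdge d) : ∃ τ : Equiv.Perm (Point d),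
    F.IsDiag (edgeW F e) τ ∧ ∀ (σ : Path d e.1.tgt) b (w : Wd d b) g h,
      τ ⟨e.1.tgt, σ, b, w, g, h⟩ =
        ⟨e.1.src, .cons e.1 e.2 σ, b, w, g, (1, e.1.pval, e.1.qval) * h⟩ := by
  obtain ⟨τ, hτ, h'⟩ := tr_edge hG hF e
  exact ⟨τ, hτ, fun σ b w g h => h' _ rfl _ ⟨σ, b, w, g, h, rfl, rfl⟩⟩

/-- Behind a letter, the map is the letter after the map after its translation. -/
theorem ev_u_letter (j : Fin 3) (i : Fin d.n) : F.Ev fun M => ∀ f, Frame.Good M (phi M) f →
    Calc.Le f (setFld M (atS .guess ∩ tagIs true)) →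
      cj (M.f (uWord F j)) (cj (edgeX M ⟨letterE i, letterE_ok i⟩) f) =
        cj (edgeX M ⟨letterE i, letterE_ok i⟩)
          (cj (M.f (uWord F j)) (cj (inX M (proj j (d.gen i))) f)) := by
  obtain ⟨τ, hτ, eτ⟩ := exists_u_perm hG hF j
  obtain ⟨ε, hε, eε⟩ := exists_edge_perm hG hF ⟨letterE i, letterE_ok i⟩
  refine (ev_agree_fld (hτ.mul hε) ((hε.mul hτ).mul (isDiag_inWord hG hF (proj j (d.gen i))))
    ((hF.hasSet (gen_atS .guess)).inter (hasSet_tagIs hF true)) ?_).mono fun M hM f hf hle => ?_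
  · rintro ⟨st, σ, b, w, g, h⟩ ⟨hs, hb⟩
    change st = _ at hs
    change b = true at hb
    subst hs hb
    have e1 : inPerm (proj j (d.gen i))⁻¹ (⟨.guess, σ, true, w, g, h⟩ : Point d) =
        ⟨.guess, σ, true, w, g * proj j (d.gen i), h⟩ := by simp [inPerm]
    rw [Equiv.Perm.mul_apply, Equiv.Perm.mul_apply, Equiv.Perm.mul_apply, e1,
      show ε (⟨.guess, σ, true, w, g, h⟩ : Point d) = _ from eε σ true w g h,
      eτ _ ⟨rfl, rfl⟩, eτ _ ⟨rfl, rfl⟩]
    refine Eq.trans ?_ (eε σ true w _ h).symm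
    show (⟨_, _, _, _, _, _⟩ : Point d) = ⟨_, _, _, _, _, _⟩
    congr 1
    show g * proj j (d.gen i * guessVal d σ) = _
    rw [proj_mul, mul_assoc]
  · have := hM f hf hle
    simp only [map_mul, cj_mul] at this
    exact this

/-- Behind another edge out of the guess state, the map is trivial. -/
theorem ev_u_other (j : Fin 3) (e : OEdge d) (hs : e.1.src = .guess)
    (hk : ∀ i, e.1.kind ≠ .letter i) : F.Ev fun M => ∀ f, Frame.Good M (phi M) f →
      Calc.Le f (setFld M (atS e.1.tgt ∩ tagIs true)) →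
        cj (M.f (uWord F j)) (cj (edgeX M e) f) = cj (edgeX M e) f := by
  obtain ⟨τ, hτ, eτ⟩ := exists_u_perm hG hF j
  obtain ⟨ε, hε, eε⟩ := exists_edge_perm hG hF e
  refine (ev_agree_fld (hτ.mul hε) hε
    ((hF.hasSet (gen_atS e.1.tgt)).inter (hasSet_tagIs hF true)) ?_).mono fun M hM f hf hle => ?_
  · rintro ⟨st, σ, b, w, g, h⟩ ⟨hst, hb⟩
    change st = _ at hst
    change b = true at hb
    subst hst hb
    rw [Equiv.Perm.mul_apply, eε σ true w g h, eτ _ ⟨hs, rfl⟩]
    simp [guessVal_cons_not_letter e.2 hk, proj_one]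
  · have := hM f hf hle
    simp only [map_mul, cj_mul] at this
    exact this

/-- The map passes through the outer translations. -/
theorem ev_u_out (j : Fin 3) : F.Ev fun M => ∀ (k : Outer d) f, Frame.Good M (phi M) f →
    Calc.Le f (setFld M (atS .guess ∩ tagIs true)) →
      cj (M.f (uWord F j)) (cj (outX M k) f) = cj (outX M k) (cj (M.f (uWord F j)) f) := by
  obtain ⟨τ, hτ, eτ⟩ := exists_u_perm hG hF j
  have hC : HasSet F (atS (.guess : State d) ∩ tagIs true) :=
    (hF.hasSet (gen_atS .guess)).inter (hasSet_tagIs hF true)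
  have hcomm : ∀ (t : Outer d), ∀ s ∈ atS (.guess : State d) ∩ tagIs true,
      outPerm t (τ s) = τ (outPerm t s) := fun t s hs => by
    rw [eτ s hs, eτ _ (show outPerm t s ∈ atS .guess ∩ tagS from hs)]
    rfl
  have := @Finite.of_fintype _ d.M.fintypeA
  have : Finite (Ltr d) := inferInstance
  refine (((ev_intertwine (outHom₀ F) (outHom₀ F) hτ _ _ (isDiag_outHom₀ hF)
    (isDiag_outHom₀ hF) hC (fun _ => outPerm_atS_tagIs _ _ _) fun _ => hcomm _).and
    (ev_intertwine (outHom₁ F) (outHom₁ F) hτ _ _ (isDiag_outHom₁ hF)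
      (isDiag_outHom₁ hF) hC (fun _ => outPerm_atS_tagIs _ _ _) fun _ => hcomm _)).and
    (ev_intertwine (outHom₂ F) (outHom₂ F) hτ _ _ (isDiag_outHom₂ hF)
      (isDiag_outHom₂ hF) hC (fun _ => outPerm_atS_tagIs _ _ _) fun _ => hcomm _)).mono ?_
  rintro M ⟨⟨h0, h1⟩, h2⟩ k f hf hle
  have hk : ∃ w : FreeGroup {x // x ∈ d.subGens}, FreeGroup.lift Subtype.val w = k.1⁻¹ := by
    have : k.1⁻¹ ∈ (FreeGroup.lift (Subtype.val : {x // x ∈ d.subGens} → d.Γ₀)).range := by
      rw [FreeGroup.range_lift_eq_closure, Subtype.range_coe_subtype]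
      show k.1⁻¹ ∈ Subgroup.closure (d.subGens : Set d.Γ₀)
      rw [hG.subGens_top]; exact Subgroup.mem_top _
    exact this
  obtain ⟨⟨g2, l2⟩, e2⟩ := h2 k.2.2⁻¹ f hf hle
  obtain ⟨⟨g1, l1⟩, e1⟩ := h1 k.2.1⁻¹ _ g2 l2
  obtain ⟨-, e0⟩ := h0 hk.choose _ g1 l1
  simp only [outX, outWord, dif_pos hk, map_mul, cj_mul]
  rw [e2, e1, e0]

/-- At the guess state the map and all inner translations fix the bases. -/
theorem ev_u_base (j : Fin 3) (B : Base d) : F.Ev fun M => B.s = .guess → B.b = true →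
    cj (M.f (uWord F j)) (bfld M B) = bfld M B ∧ ∀ m, cj (inX M m) (bfld M B) = bfld M B := by
  by_cases hB : B.s = .guess ∧ B.b = true
  swap
  · exact Frame.Ev.of_forall fun M h1 h2 => absurd ⟨h1, h2⟩ hB
  obtain ⟨hs, hb⟩ := hB
  obtain ⟨τ, hτ, eτ⟩ := exists_u_perm hG hF j
  have hsub : B.set ⊆ atS .guess ∩ tagS := fun x hx =>
    ⟨Eq.trans (hx.1.1 : x.st = B.s) hs, Eq.trans (hx.1.2 : x.tag = B.b) hb⟩
  have hBs : HasSet F B.set := fun v => Calc.Frame.exists_restr_gmem (gmem_base hF B) v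
  have hU : τ '' B.set = B.set := by
    ext x
    constructor
    · rintro ⟨y, hy, rfl⟩
      rw [eτ y (hsub hy)]
      exact (Base.set_g hb y _).2 hy
    · intro hx
      have hy := (Base.set_g hb x (x.g * (proj j (guessVal d x.σ))⁻¹)).2 hx
      exact ⟨_, hy, by rw [eτ _ (hsub hy)]; simp⟩
  refine ((ev_image hτ hBs).and (Frame.Ev.all fun i : Fin d.n =>
    ev_image (isDiag_inHom hF i) hBs)).mono fun M ⟨h1, h2⟩ _ _ => ⟨by
    show cj _ (setFld M B.set) = setFld M B.set
    rw [h1, hU], fun m => ?_⟩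
  have hi : ∀ i, cj (M.f (inHom F (FreeGroup.of i))) (bfld M B) = bfld M B := fun i => by
    have e : inPerm (d.gen i) '' B.set = B.set := by
      rw [inPerm_image, gT_img_of _ (Base.set_g hb)]
    show cj _ (setFld M B.set) = setFld M B.set
    rw [h2 i, e]
  have all : ∀ u : FreeGroup (Fin d.n), cj (M.f (inHom F u)) (bfld M B) = bfld M B := fun u => by
    induction u using FreeGroup.induction_on with
    | C1 => rw [map_one, map_one, cj_one]
    | of i => exact hi i
    | inv_of i h =>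
      rw [map_inv, map_inv]
      nth_rewrite 1 [← h]
      rw [cj_inv_cancel]
    | mul u v hu hv => rw [map_mul, map_mul, cj_mul, hv, hu]
  rw [inX, inWord]
  split_ifs
  · exact all _
  · rw [map_one, cj_one]

/-- The equations of one map along every path. -/
structure URules (M : F.Model) (j : Fin 3) : Prop where
  letter : ∀ i f, Frame.Good M (phi M) f → Calc.Le f (setFld M (atS .guess ∩ tagIs true)) →
    cj (M.f (uWord F j)) (cj (edgeX M ⟨letterE i, letterE_ok i⟩) f) =
      cj (edgeX M ⟨letterE i, letterE_ok i⟩)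
        (cj (M.f (uWord F j)) (cj (inX M (proj j (d.gen i))) f))
  other : ∀ e : OEdge d, e.1.src = .guess → (∀ i, e.1.kind ≠ .letter i) →
    ∀ f, Frame.Good M (phi M) f → Calc.Le f (setFld M (atS e.1.tgt ∩ tagIs true)) →
      cj (M.f (uWord F j)) (cj (edgeX M e) f) = cj (edgeX M e) f
  out : ∀ (k : Outer d) f, Frame.Good M (phi M) f →
    Calc.Le f (setFld M (atS .guess ∩ tagIs true)) →
      cj (M.f (uWord F j)) (cj (outX M k) f) = cj (outX M k) (cj (M.f (uWord F j)) f)
  base : ∀ B : Base d, B.s = .guess → B.b = true →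
    cj (M.f (uWord F j)) (bfld M B) = bfld M B ∧ (∀ m, cj (inX M m) (bfld M B) = bfld M B) ∧
      Frame.Good M (phi M) (bfld M B) ∧
      Calc.Le (bfld M B) (setFld M (atS .guess ∩ tagIs true))

omit hG hF in
theorem finite_predU : Finite (Pred d) := by
  have := finite_ltr (d := d)
  exact Finite.of_surjective (fun x : Fin 7 ⊕ (Ltr d × Bool) => match x with
    | .inl 0 => .full | .inl 1 => .hOne | .inl 2 => .zOne | .inl 3 => .clean
    | .inl 4 => .gOne | .inl 5 => .kSet | .inl _ => .gHOne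
    | .inr s => .zFront s) fun p => by
    cases p with
    | full => exact ⟨.inl 0, rfl⟩
    | hOne => exact ⟨.inl 1, rfl⟩
    | zOne => exact ⟨.inl 2, rfl⟩
    | clean => exact ⟨.inl 3, rfl⟩
    | gOne => exact ⟨.inl 4, rfl⟩
    | kSet => exact ⟨.inl 5, rfl⟩
    | gHOne => exact ⟨.inl 6, rfl⟩
    | zFront s => exact ⟨.inr s, rfl⟩

theorem ev_uRules (j : Fin 3) : F.Ev fun M => URules M j := by
  have := (finite_edges (d := d)).to_subtype
  have := finite_predU (d := d)
  have : Finite (OEdge d) := (finite_edges (d := d)).to_subtype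
  have := Frame.Ev.all fun p : Pred d =>
    ((ev_u_base hG hF j ⟨.guess, true, p⟩).and
      (ev_setFld (e := (⟨.guess, true, p⟩ : Base d).set)
        fun v => Calc.Frame.exists_restr_gmem (gmem_base hF _) v)).and
      (ev_le (e := (⟨.guess, true, p⟩ : Base d).set)
        (f := atS (.guess : State d) ∩ tagIs true)
        (fun v => Calc.Frame.exists_restr_gmem (gmem_base hF _) v)
        ((hF.hasSet (gen_atS .guess)).inter (hasSet_tagIs hF true)) Set.inter_subset_left)
  have ho : F.Ev fun M => ∀ e : OEdge d, e.1.src = .guess → (∀ i, e.1.kind ≠ .letter i) →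
      ∀ f, Frame.Good M (phi M) f → Calc.Le f (setFld M (atS e.1.tgt ∩ tagIs true)) →
        cj (M.f (uWord F j)) (cj (edgeX M e) f) = cj (edgeX M e) f := by
    refine Frame.Ev.all fun e => ?_
    by_cases h : e.1.src = .guess ∧ ∀ i, e.1.kind ≠ .letter i
    · exact (ev_u_other hG hF j e h.1 h.2).mono fun M hM _ _ => hM
    · exact Frame.Ev.of_forall fun M h1 h2 => absurd ⟨h1, h2⟩ h
  refine ((((Frame.Ev.all fun i => ev_u_letter hG hF j i).and ho).and
    (ev_u_out hG hF j)).and this).mono ?_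
  rintro M ⟨⟨⟨h1, h2⟩, h3⟩, h4⟩
  refine ⟨h1, h2, h3, fun B hs hb => ?_⟩
  obtain ⟨s, b, p⟩ := B
  simp only at hs hb
  subst hs hb
  obtain ⟨⟨h5, h6⟩, h7⟩ := h4 p
  obtain ⟨h8, h9⟩ := h5 rfl rfl
  exact ⟨h8, h9, h6.2.2.2, h7⟩

end Core

variable {M : F.Model}

/-- The field of a family of atoms along paths is moved by the map by changing the inner
translation. -/
theorem URules.along {j : Fin 3} (U : URules M j) (R : Rig M) (L : GroupLaws M)
    {c : State d} (A : List (OEdge d) → Inner d → Atom d)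
    (hok : ∀ π m, Chain π c → (A π m).Ok) (hst : ∀ π m, (A π m).st = top π c)
    (htag : ∀ π m, (A π m).tag = true)
    (hcons : ∀ e π m, (A (e :: π) m).fld M = cj (edgeX M e) ((A π m).fld M))
    (hshift : ∀ π m t, (A π m).inShift t = A π (m * t))
    (hnil : c = .guess → ∀ m, cj (M.f (uWord F j)) ((A [] m).fld M) = (A [] m).fld M) :
    ∀ π, Chain π c → top π c = .guess → ∀ m,
      ∃ m', cj (M.f (uWord F j)) ((A π m).fld M) = (A π m').fld M := by
  intro π
  induction π with
  | nil => exact fun _ h m => ⟨m, hnil h m⟩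
  | cons e π ih =>
    intro hc hs m
    have hg : Frame.Good M (phi M) ((A π m).fld M) := R.good _
    have hl : Calc.Le ((A π m).fld M) (setFld M (atS (top π c) ∩ tagIs true)) := by
      have := R.le_st (hok π m hc.2)
      rwa [hst, htag, stB, bfld_full] at this
    rw [← hc.1] at hl
    by_cases hk : ∃ i, e.1.kind = .letter i
    · obtain ⟨i, hi⟩ := hk
      obtain ⟨e, he⟩ := e
      obtain rfl := edge_letter_eq he hi
      obtain ⟨m', hm'⟩ := ih hc.2 hc.1.symm (m * proj j (d.gen i))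
      refine ⟨m', ?_⟩
      rw [hcons, U.letter i _ hg hl, ← R.fld_inShift L (hok π m hc.2), hshift, hm', hcons]
    · refine ⟨m, ?_⟩
      rw [hcons, U.other e hs (fun i h => hk ⟨i, h⟩) _ hg hl]

/-- A guessed-value map shifts the atoms of its domain. -/
theorem shifts_uWord (hG : Good d) (hF : IsCore F) (j : Fin 3) :
    Shifts F (uWord F j) fun A => A.st = .guess ∧ A.tag = true := by
  refine (ev_uRules hG hF j).mono fun M U R L => ?_
  rintro ⟨A, hA⟩ ⟨hs, hb⟩
  cases A with
  | base π k m B =>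
    obtain ⟨m', h⟩ := U.along R L (c := B.s) (fun π m => .base π k m B)
      (fun _ _ h => h) (fun _ _ => rfl) (fun _ _ => hb) (fun e π m => fld_base_cons e π k m B)
      (fun _ _ _ => rfl) (fun hc m => by
        obtain ⟨h1, h2, h3, h4⟩ := U.base B hc hb
        rw [fld_base_nil, h2, U.out k _ h3 h4, h1]) π hA hs m
    exact ⟨⟨.base π k m' B, hA⟩, h⟩
  | push π k m p A =>
    obtain ⟨m', h⟩ := U.along R L (c := .fin) (fun π m => .push π k m p A)
      (fun _ _ h => ⟨h, hA.2⟩) (fun _ _ => rfl) (fun _ _ => hb)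
      (fun e π m => fld_push_cons e π k m p A) (fun _ _ _ => rfl)
      (fun hc _ => by cases hc) π hA.1 hs m
    exact ⟨⟨.push π k m' p A, hA⟩, h⟩

end Vale.Agent.P193.Core.Inst
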