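import Vale.Agent.P193.Full.Core.CovMoves.Push
import Vale.Agent.P193.Full.Core.CovMoves.UMap
import Vale.Agent.P193.Full.Core.Inst.Laws
import Vale.Agent.P193.Full.Core.Inst.RigEv
import Vale.Agent.P193.Full.Core.Inst.Closed
import Vale.Agent.P193.Full.Core.Calculus

/-! The generators of a core frame carry the fields of the predicates: the pieces of each
generator, their diagonal words, and the moving identity on them. -/

open Classical

namespace Vale.Agent.P193.Core.Inst

open Calc Facts

set_option linter.unusedSectionVars false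

variable {d : Data} [DecidableEq d.M.A] {F : Calc.Frame (Point d)}

theorem isTr_mono {γ : Set (Point d × Point d)} {D D' : Set (Point d)} {x : F.Free}
    (h : IsTr F γ D x) (hD : D' ⊆ D) : IsTr F γ D' x :=
  let ⟨τ, h1, h2⟩ := h
  ⟨τ, h1, fun s hs => h2 s (hD hs)⟩

variable (hG : Good d) (hF : IsCore F) (hp : commutator (Vgrp (Point d)) = ⊤)
  (hav : Avoids (Vgrp (Point d)))

theorem coreSys_closed : (coreSys hG hF).Closed :=
  closed _ hG hF (Equiv.refl _) fun _ => rfl

/-- Some pieces of the generator satisfy the moving identity in almost every model. -/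
def CarriedAt (i : F.ι) : Prop :=
  ∃ p : Frame.Pieces (coreSys hG hF) i, F.Ev fun M => Rig M → GroupLaws M →
    ∀ Φ : Frame.Fields (coreSys hG hF) M,
      (Φ.setup hp hav).ctx.EmptyTrivial → Φ.MovesAt hp hav p

/-- Finitely many disjoint sets with words that shift the atoms inside them. -/
theorem carriedAt_of {i : F.ι} {γ : Set (Point d × Point d)} (hi : F.g i = γ) {α : Type}
    [Finite α] (D : α → Set (Point d)) (x : α → F.Free) (P : α → Atom d → Prop)
    (hdisj : ∀ a b, a ≠ b → Disjoint (D a) (D b)) (hsub : ∀ a, D a ⊆ gdom γ)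
    (hcov : ∀ s ∈ gdom γ, ∃ a, s ∈ D a) (hx : ∀ a, IsTr F γ (D a) (x a))
    (hdef : ∀ a, DefK (D a)) (hmove : ∀ a, Shifts F (x a) (P a))
    (hsplit : ∀ a, ∀ A : Kappa d,
      kset A ∩ D a = ∅ ∨ ∃ B : Kappa d, P a B.1 ∧ kset B = kset A ∩ D a) :
    CarriedAt hG hF hp hav i := by
  have := Fintype.ofFinite α
  subst hi
  choose τ hτ hγ using hx
  let P' : α → Frame.Piece (coreSys hG hF) i := fun a =>
    { dom := D a
      word := x a
      perm := τ a
      diag := hτ a
      graph := fun s hs => by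
        obtain ⟨t, ht⟩ := hsub a hs
        rwa [hγ a s hs t ht]
      isDef := (hdef a).toDef _ fun A => ⟨A, rfl⟩ }
  let p : Frame.Pieces (coreSys hG hF) i :=
    { l := (Finset.univ : Finset α).toList.map P'
      disj := List.pairwise_map.2 ((Finset.nodup_toList _).imp fun h => hdisj _ _ h)
      cover := by
        ext s
        constructor
        · intro hs
          obtain ⟨a, ha⟩ := hcov s hs
          exact ⟨P' a, List.mem_map_of_mem (Finset.mem_toList.2 (Finset.mem_univ a)), ha⟩
        · rintro ⟨b, hb, hs⟩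
          obtain ⟨a, -, rfl⟩ := List.mem_map.1 hb
          exact hsub a hs }
  refine ⟨p, ((ev_fields_good hG hF).and (Frame.Ev.all hmove)).mono ?_⟩
  rintro M ⟨hg, hm⟩ R L Φ hE
  refine Φ.movesAt_of_moves hp hav hE p ?_ ?_
  · intro b hb A
    obtain ⟨a, -, rfl⟩ := List.mem_map.1 hb
    exact (hsplit a A).imp_right fun ⟨B, _, hB⟩ => ⟨B, hB⟩
  · intro b hb B hB
    obtain ⟨a, -, rfl⟩ := List.mem_map.1 hb
    have hset : ∀ k, Φ.setField hp hav ((coreSys hG hF).set k) = Φ.fld k := fun k =>
      Calc.Setup.h_set (D := Φ.setup hp hav) hE k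
    have e0 : kset B ∩ D a = kset B := Set.inter_eq_left.2 hB
    rcases hsplit a B with h | ⟨B', hP, hB'⟩
    · have e1 : Φ.fld B = 1 := by
        rw [← hset B, show (coreSys hG hF).set B = ∅ from e0.symm.trans h]
        exact Calc.Ctx.field_empty (C := (Φ.setup hp hav).ctx) hE
      exact ⟨B, fun v => by simp [e1]⟩
    · have e1 : Φ.fld B = Φ.fld B' := by
        rw [← hset B, ← hset B', show (coreSys hG hF).set B = (coreSys hG hF).set B' from
          e0.symm.trans hB'.symm]
      obtain ⟨C, hC⟩ := hm a R L B' hP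
      refine ⟨C, fun v => ?_⟩
      show M.f (x a) * Φ.fld B v * (M.f (x a))⁻¹ = Φ.fld C v
      have a1 : Φ.fld B' = kfld M B' := (hg Φ).2.1 B'
      have a2 : Φ.fld C = kfld M C := (hg Φ).2.1 C
      rw [e1, a1, a2, ← hC]
      rfl

/-- An identity on a definable set. -/
theorem carriedAt_idem {i : F.ι} {e : Set (Point d)} (hi : F.g i = gid e) :
    CarriedAt hG hF hp hav i :=
  have he : (coreSys hG hF).Def e := by
    have := (coreSys_closed hG hF).dom i
    rwa [hi, gdom_gid] at this
  ⟨Frame.Pieces.idem hi he, .of_forall fun _ _ _ Φ _ => Φ.movesAt_idem hp hav hi he⟩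

/-- The inverse of a carried generator is carried. -/
theorem carriedAt_inverse {i j : F.ι} (h : F.g j = ginv (F.g i))
    (hj : CarriedAt hG hF hp hav i) : CarriedAt hG hF hp hav j := by
  obtain ⟨p, hev⟩ := hj
  have h' : F.g i = ginv (F.g j) := by rw [h]; rfl
  refine ⟨Frame.Pieces.inverse (coreSys_closed hG hF) h p, (hev.and (Frame.Ev.all
    fun n : Fin p.l.length =>
      Frame.ev_moves_dom (coreSys hG hF) hp hav (coreSys_closed hG hF) (p.l.get n))).mono ?_⟩
  rintro M ⟨hm, h0⟩ R L Φ hE
  refine Φ.movesAt_inverse hp hav hE (coreSys_closed hG hF) h h' (hm R L Φ hE) fun a ha => ?_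
  obtain ⟨n, rfl⟩ := List.mem_iff_get.1 ha
  exact h0 n Φ hE

/-- A generator defined everywhere with one word that shifts all atoms. -/
theorem carriedAt_univ {i : F.ι} {γ : Set (Point d × Point d)} (hi : F.g i = γ) {x : F.Free}
    (hdom : gdom γ = Set.univ) (hx : IsTr F γ Set.univ x)
    (hmove : Shifts F x fun _ => True) : CarriedAt hG hF hp hav i :=
  carriedAt_of hG hF hp hav hi (fun _ : Unit => Set.univ) (fun _ => x) (fun _ _ => True)
    (fun _ _ h => absurd rfl h) (fun _ => hdom.symm.subset) (fun _ _ => ⟨(), trivial⟩)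
    (fun _ => hx) (fun _ => .full) (fun _ => hmove)
    fun _ A => .inr ⟨A, trivial, (Set.inter_univ _).symm⟩

include hG hF in
theorem isTr_outWord (t : Outer d) : IsTr F (hT t) Set.univ (outWord F t) :=
  isTr_iff.2 ⟨_, eval_outWord hG hF t, fun s _ u hu => by
    rw [show u = { s with h := s.h * t } from hu]; simp [outPerm]⟩

include hG hF in
theorem isTr_inWord (t : Inner d) : IsTr F (gT t) Set.univ (inWord F t) :=
  isTr_iff.2 ⟨_, eval_inWord hG hF t, fun s _ u hu => by
    rw [show u = { s with g := s.g * t } from hu]; simp [inPerm]⟩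

theorem carriedAt_hT {i : F.ι} {t : Outer d} (hi : F.g i = hT t) :
    CarriedAt hG hF hp hav i :=
  carriedAt_univ hG hF hp hav hi (Set.eq_univ_of_forall fun s => ⟨{ s with h := s.h * t }, show _ = _ from rfl⟩)
    (isTr_outWord hG hF t) (shifts_outWord F t)

theorem carriedAt_gT {i : F.ι} {t : Inner d} (hi : F.g i = gT t) :
    CarriedAt hG hF hp hav i :=
  carriedAt_univ hG hF hp hav hi (Set.eq_univ_of_forall fun s => ⟨{ s with g := s.g * t }, show _ = _ from rfl⟩)
    (isTr_inWord hG hF t) (shifts_inWord F t)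

theorem carriedAt_edge {i : F.ι} (e : OEdge d) (hi : F.g i = edgeG e.1 e.2) :
    CarriedAt hG hF hp hav i := by
  refine carriedAt_of hG hF hp hav hi (fun _ : Unit => atS e.1.tgt) (fun _ => edgeW F e)
    (fun _ A => A.st = e.1.tgt) (fun _ _ h => absurd rfl h)
    (fun _ => (gdom_edgeG _ _).symm.subset) (fun s hs => ⟨(), (gdom_edgeG _ _).subset hs⟩)
    (fun _ => tr_edge hG hF e) (fun _ => defK_atS _) (fun _ => shifts_edge F e) fun _ A => ?_
  by_cases hs : A.1.st = e.1.tgt
  · exact .inr ⟨A, hs, Eq.symm (Set.inter_eq_left.2 fun x hx =>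
      (show x.st = A.1.st from (A.1.set_sub_stTag hx).1).trans hs)⟩
  · exact .inl (Set.eq_empty_of_forall_notMem fun x ⟨h1, h2⟩ =>
      hs ((show x.st = A.1.st from (A.1.set_sub_stTag h1).1).symm.trans h2))

theorem carriedAt_uG {i : F.ι} (j : Fin 3) (hi : F.g i = uG j) :
    CarriedAt hG hF hp hav i := by
  have hx : IsTr F (uG j) (atS .guess ∩ tagS) (uWord F j) := tr_uG hG hF j
  have hmove := shifts_uWord hG hF j
  refine carriedAt_of hG hF hp hav hi (fun _ : Unit => atS .guess ∩ tagS) (fun _ => uWord F j)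
    (fun _ A => A.st = .guess ∧ A.tag = true) (fun _ _ h => absurd rfl h)
    (fun _ => (gdom_uG j).symm.subset) (fun s hs => ⟨(), (gdom_uG j).subset hs⟩)
    (fun _ => hx) (fun _ => (defK_atS _).inter defK_tagS) (fun _ => hmove) fun _ A => ?_
  by_cases hs : A.1.st = .guess ∧ A.1.tag = true
  · exact .inr ⟨A, hs, Eq.symm (Set.inter_eq_left.2 fun x hx =>
      ⟨(show x.st = A.1.st from (A.1.set_sub_stTag hx).1).trans hs.1,
        (show x.tag = A.1.tag from (A.1.set_sub_stTag hx).2).trans hs.2⟩)⟩
  · exact .inl (Set.eq_empty_of_forall_notMem fun x ⟨h1, h2, h3⟩ =>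
      hs ⟨(show x.st = A.1.st from (A.1.set_sub_stTag h1).1).symm.trans h2,
        (show x.tag = A.1.tag from (A.1.set_sub_stTag h1).2).symm.trans h3⟩)

omit hG hF hp hav in
/-- The trace of an atom on the domain of a push at a state. -/
theorem push_split (q : Push) (s : State d) (A : Kappa d) :
    kset A ∩ (atS s ∩ gdom q.graph) = ∅ ∨
      ∃ B : Kappa d, (B.1.st = s ∧ Atom.Dom q B.1) ∧
        kset B = kset A ∩ (atS s ∩ gdom q.graph) := by
  obtain ⟨A, hA⟩ := A
  show A.set ∩ _ = ∅ ∨ ∃ B : Kappa d, _ ∧ kset B = A.set ∩ _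
  by_cases hD : A.st = s ∧ Atom.Dom q A
  · exact .inr ⟨⟨A, hA⟩, hD, Eq.symm (Set.inter_eq_left.2 fun x hx =>
      ⟨(show x.st = A.st from (A.set_sub_stTag hx).1).trans hD.1,
        Atom.dom_subset q A hA hD.2 hx⟩)⟩
  by_cases hs : A.st = s
  swap
  · exact .inl (Set.eq_empty_of_forall_notMem fun x ⟨h1, h2, _⟩ =>
      hs ((show x.st = A.st from (A.set_sub_stTag h1).1).symm.trans h2))
  have none : (∀ x ∈ A.set, x ∈ gdom q.graph → False) →
      A.set ∩ (atS s ∩ gdom q.graph) = ∅ ∨ ∃ B : Kappa d, (B.1.st = s ∧ Atom.Dom q B.1) ∧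
        kset B = A.set ∩ (atS s ∩ gdom q.graph) :=
    fun h => .inl (Set.eq_empty_of_forall_notMem fun x ⟨h1, _, h3⟩ => h x h1 h3)
  replace hD : ¬ Atom.Dom q A := fun h => hD ⟨hs, h⟩
  cases q with
  | theta => exact absurd trivial hD
  | omC =>
    exact none fun x hx hd => hD
      ((A.set_sub_stTag hx).2.symm.trans ((gdom_omCG (d := d)).subset hd : x ∈ tagS))
  | omD =>
    exact none fun x hx hd => hD
      ((A.set_sub_stTag hx).2.symm.trans (tag_of_not_tagS ((gdom_omDG (d := d)).subset hd)))
  | omK =>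
    refine none fun x hx hd => hD ?_
    have hd' : x ∈ atS .guess ∩ tagSᶜ := (gdom_omKG (d := d)).subset hd
    exact ⟨(A.set_sub_stTag hx).2.symm.trans (tag_of_not_tagS hd'.2),
      (A.set_sub_stTag hx).1.symm.trans hd'.1⟩
  | tMap =>
    have hdom : ∀ x : Point d, x ∈ gdom (Push.tMap.graph (d := d)) → x ∈ finS false :=
      fun x hd => by
        have hd' : x ∈ atS .fin ∩ hOneS ∩ tagSᶜ := (gdom_tG (d := d)).subset hd
        exact ⟨hd'.1, tag_of_not_tagS hd'.2⟩
    by_cases ht : A.tag = false
    swap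
    · exact none fun x hx hd => ht ((A.set_sub_stTag hx).2.symm.trans (hdom x hd).2)
    by_cases hf : A.st = .fin
    swap
    · exact none fun x hx hd => hf ((A.set_sub_stTag hx).1.symm.trans (hdom x hd).1.1)
    have hs' : s = .fin := hs.symm.trans hf
    subst hs'
    have e0 : atS .fin ∩ gdom (Push.tMap.graph (d := d)) = finS false := by
      ext x
      refine ⟨fun h => hdom x h.2, fun h => ⟨h.1.1, (gdom_tG (d := d)).symm.subset
        ⟨h.1, fun h' => Bool.false_ne_true (h.2.symm.trans h')⟩⟩⟩
    rw [e0]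
    cases A with
    | base π k m B =>
      cases π with
      | cons e π => exact absurd hf (Path.src_ne_fin e.2)
      | nil =>
        obtain ⟨b0, b, p⟩ := B
        obtain rfl : b0 = .fin := hf
        obtain rfl : b = false := ht
        rw [Atom.set_base]
        rcases moved_fin_cases k m false p with h | h | h <;> rw [h]
        · exact .inl rfl
        · refine .inr ⟨⟨Atom.base [] 1 1 ⟨.fin, false, .hOne⟩, trivial⟩,
            ⟨rfl, rfl, rfl, rfl, rfl, Or.inl rfl⟩, ?_⟩
          show (Atom.base [] 1 1 _).set = _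
          rw [Atom.set_base, moved_one, ← finS_eq]
        · refine .inr ⟨⟨Atom.base [] 1 m ⟨.fin, false, .gHOne⟩, trivial⟩,
            ⟨rfl, rfl, rfl, rfl, rfl, Or.inr rfl⟩, ?_⟩
          show (Atom.base [] 1 m _).set = _
          rw [Atom.set_base]
          exact (gimg_hT_one _).trans (gHOne_moved m)
    | push π k m p A =>
      cases π with
      | cons e π => exact absurd hf (Path.src_ne_fin e.2)
      | nil =>
        refine .inl (Set.eq_empty_of_forall_notMem fun x ⟨hx, hd⟩ => hD ⟨ht, rfl, ?_⟩)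
        rw [Atom.set_push] at hx
        have h1 : x.h * k⁻¹ = 1 :=
          (Push.gran_sub_fin p (gimg_subset_gran _ _ (mem_moved_nil.1 hx))).1.2
        have h2 : x.h = 1 := hd.1.2
        rwa [h2, one_mul, inv_eq_one] at h1

theorem carriedAt_push (q : Push) {i : F.ι} (hi : F.g i = q.graph) :
    CarriedAt hG hF hp hav i := by
  have := Facts.finite_state (d := d)
  exact carriedAt_of hG hF hp hav hi (fun s : State d => atS s ∩ gdom q.graph)
    (fun s => pushW F q s) (fun s A => A.st = s ∧ Atom.Dom q A)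
    (fun a b h => (atS_disjoint h).mono Set.inter_subset_left Set.inter_subset_left)
    (fun _ => Set.inter_subset_right) (fun s hs => ⟨s.st, rfl, hs⟩)
    (fun s => isTr_mono (tr_push hG hF q s) Set.inter_subset_left)
    (fun s => (defK_atS s).inter (defK_gdom_push q)) (fun s => shifts_push q s)
    fun s A => push_split q s A

theorem carriedAt_gen {γ : Set (Point d × Point d)} (h : Gen d γ) {i : F.ι}
    (hi : F.g i = γ) : CarriedAt hG hF hp hav i := by
  cases h with
  | atState s => exact carriedAt_idem hG hF hp hav hi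
  | edge e he => exact carriedAt_edge hG hF hp hav ⟨e, he⟩ hi
  | outer₀ k _ => exact carriedAt_hT hG hF hp hav (t := (k, 1, 1)) hi
  | outer₁ a => exact carriedAt_hT hG hF hp hav (t := (1, FreeGroup.of a, 1)) hi
  | outer₂ a => exact carriedAt_hT hG hF hp hav (t := (1, 1, FreeGroup.of a)) hi
  | inner n => exact carriedAt_gT hG hF hp hav (t := d.gen n) hi
  | zOne => exact carriedAt_idem hG hF hp hav hi
  | zFront s => exact carriedAt_idem hG hF hp hav hi
  | hOne => exact carriedAt_idem hG hF hp hav hi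
  | tagC => exact carriedAt_idem hG hF hp hav hi
  | cleanSet => exact carriedAt_idem hG hF hp hav hi
  | gOne => exact carriedAt_idem hG hF hp hav hi
  | kSet => exact carriedAt_idem hG hF hp hav hi
  | uMap₀ => exact carriedAt_uG hG hF hp hav 0 hi
  | uMap₁ => exact carriedAt_uG hG hF hp hav 1 hi
  | uMap₂ => exact carriedAt_uG hG hF hp hav 2 hi
  | theta => exact carriedAt_push hG hF hp hav .theta hi
  | omC => exact carriedAt_push hG hF hp hav .omC hi
  | omD => exact carriedAt_push hG hF hp hav .omD hi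
  | omK => exact carriedAt_push hG hF hp hav .omK hi
  | tMap => exact carriedAt_push hG hF hp hav .tMap hi

theorem carriedAt (i : F.ι) : CarriedAt hG hF hp hav i := by
  have h : F.g i ∈ genSet d := hF ▸ ⟨i, rfl⟩
  rcases h with h | h
  · exact carriedAt_gen hG hF hp hav h rfl
  · obtain ⟨j, hj⟩ := hF.exists_index h
    exact carriedAt_inverse hG hF hp hav (show F.g i = ginv (F.g j) by rw [hj]; rfl)
      (carriedAt_gen hG hF hp hav h hj)

/-- The generators carry the fields of the predicates to those of the images. -/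
theorem carriedPart (d : Data) [DecidableEq d.M.A] : CarriedPart d := fun hG F hF hp hav => by
  have := F.fin_ι
  choose p hev using fun i => carriedAt hG hF hp hav i
  refine ev_carried_of_moves hG hF (coreSys_closed hG hF) hp hav p ?_
  exact (((ev_rig_of_laws hG hF).and (ev_groupLaws hG hF)).and (Frame.Ev.all hev)).mono
    fun M ⟨⟨R, L⟩, h⟩ Φ hE i => h i (R L) L Φ hE

end Vale.Agent.P193.Core.Inst
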