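import Vale.Agent.P193.Full.Core.CovMoves.Setup
import Vale.Agent.P193.Full.Core.Inst.Rig

/-! The word of a push carries the field of an atom in its domain to the field of the pushed
atom. -/

namespace Vale.Agent.P193.Core.Inst

open Calc Facts

open Classical

set_option linter.unusedSectionVars false

variable {d : Data} [DecidableEq d.M.A] {F : Calc.Frame (Point d)}

/-- The pushed atom as a predicate. -/
def pushKappa (p : Push) (A : Kappa d) (h : Atom.Dom p A.1) : Kappa d :=
  ⟨.push [] 1 1 p A.1, trivial, A.2, h⟩

/-- The moving equation of a push. -/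
theorem push_fld {M : F.Model} (R : Rig M) (p : Push) (A : Kappa d) (h : Atom.Dom p A.1) :
    cj (pushX M p A.1.st) (kfld M A) = kfld M (pushKappa p A h) := by
  show _ = (Atom.push [] 1 1 p A.1).fld M
  rw [fld_push_nil, R.out_one, R.in_one, cj_one, cj_one]
  rfl

/-- A push shifts the atoms in its domain. -/
theorem shifts_push (p : Push) (s : State d) :
    Shifts F (pushW F p s) fun A => A.st = s ∧ Atom.Dom p A :=
  .of_forall fun _ R _ A ⟨hs, hd⟩ => ⟨pushKappa p A hd, by subst hs; exact push_fld R p A hd⟩

end Vale.Agent.P193.Core.Inst
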