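import Vale.Agent.P193.Full.Calc.Maps.Track
import Vale.Agent.P193.Full.Core.CovPieces
import Vale.Agent.P193.Full.Core.Inst.Rig

/-! Moving identities from moves of atoms. If a diagonal word sends the field of every predicate
inside a piece to the field of some predicate, and traces of predicates on the piece are predicates
or empty, the moving identity holds there: the two sets agree as their restrictions do. -/

open Classical

namespace Vale.Agent.P193.Calc

variable {S : Type}

theorem restr_inj {e f : Set S}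
    (h : restr e (vswap (S := S) colAB) = restr f (vswap (S := S) colAB)) : e = f := by
  ext s
  have ne : (hv S).pre colB (cnZero, s) ≠ (hv S).pre colA (cnZero, s) :=
    colAB.symm.incomp _ _
  have hp := DFunLike.congr_fun h ((hv S).pre colA (cnZero, s))
  rw [restr_apply, restr_apply, hv_pre_snd, vswap_fwd] at hp
  by_cases h1 : s ∈ e <;> by_cases h2 : s ∈ f <;> simp [h1, h2, ne, ne.symm] at hp ⊢

namespace Frame

variable {F : Frame S} {K : F.FieldSys}

/-- Moving identities from moves of predicates. -/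
theorem Fields.movesAt_of_moves {M : F.Model} (Φ : Fields K M) (hp : commutator (Vgrp S) = ⊤)
    (hav : Avoids (Vgrp S)) (hE : (Φ.setup hp hav).ctx.EmptyTrivial) {i : F.ι} (p : Pieces K i)
    (hsplit : ∀ a ∈ p.l, ∀ A, K.set A ∩ a.dom = ∅ ∨ ∃ B, K.set B = K.set A ∩ a.dom)
    (hmove : ∀ a ∈ p.l, ∀ B, K.set B ⊆ a.dom →
      ∃ C, ∀ v, M.f a.word * Φ.fld B v * (M.f a.word)⁻¹ = Φ.fld C v) :
    Φ.MovesAt hp hav p := by
  intro a ha A v
  rcases hsplit a ha A with h | ⟨B, hB⟩
  · have e1 : {t | ∃ s ∈ K.set A ∩ a.dom, (s, t) ∈ F.g i} = (∅ : Set S) :=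
      Set.eq_empty_of_forall_notMem fun t ⟨s, hs, _⟩ => h.subset hs
    have e2 : Φ.setField hp hav (∅ : Set S) = 1 :=
      Ctx.field_empty (C := (Φ.setup hp hav).ctx) hE
    rw [e1, h, e2]
    simp
  · obtain ⟨C, hC⟩ := hmove a ha B (hB ▸ Set.inter_subset_right)
    have himg : a.perm '' K.set B = {t | ∃ s ∈ K.set A ∩ a.dom, (s, t) ∈ F.g i} := by
      rw [← hB]
      ext t
      constructor
      · rintro ⟨s, hs, rfl⟩
        exact ⟨s, hs, a.graph s (hB.subset hs).2⟩
      · rintro ⟨s, hs, hst⟩
        exact ⟨s, hs, (F.g_pb i).1 _ _ _ (a.graph s (hB.subset hs).2) hst⟩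
    have hdiag : F.eval a.word = diag a.perm := Equiv.ext fun ⟨f, s⟩ => a.diag f s
    have hCset : K.set C = a.perm '' K.set B := by
      refine restr_inj ?_
      have := congrArg M.π (hC (vswap colAB))
      rw [map_mul, map_mul, map_inv, Φ.fld_π, Φ.fld_π, ← MonoidHom.comp_apply, M.comm, hdiag,
        diag_restr] at this
      exact this.symm
    have hset : ∀ k, Φ.setField hp hav (K.set k) = Φ.fld k := fun k =>
      Setup.h_set (D := Φ.setup hp hav) hE k
    rw [← hB, hset B, hC v, ← hset C, hCset, himg, hB]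

end Frame

end Vale.Agent.P193.Calc

namespace Vale.Agent.P193.Core.Inst

open Calc

variable {d : Data} [DecidableEq d.M.A] (F : Calc.Frame (Point d))

/-- The word `X` eventually sends the field of each well formed atom satisfying `P` to the field
of a well formed atom, wherever the transport facts and group laws hold. -/
def Shifts (X : F.Free) (P : Atom d → Prop) : Prop :=
  F.Ev fun M => Rig M → GroupLaws M → ∀ A : Kappa d, P A.1 →
    ∃ A' : Kappa d, cj (M.f X) (kfld M A) = kfld M A'

/-- A translation or an edge shifts atoms. -/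
theorem shifts_inWord (t : Inner d) : Shifts F (inWord F t) fun _ => True :=
  .of_forall fun _ R L A _ =>
    ⟨⟨A.1.inShift t, Atom.inShift_ok A.2 t⟩, (R.fld_inShift L A.2 t).symm⟩

theorem shifts_outWord (t : Outer d) : Shifts F (outWord F t) fun _ => True :=
  .of_forall fun _ R L A _ =>
    ⟨⟨A.1.outShift t, Atom.outShift_ok A.2 t⟩, (R.fld_outShift L A.2 t).symm⟩

theorem shifts_edge (e : OEdge d) : Shifts F (edgeW F e) fun A => A.st = e.1.tgt :=
  .of_forall fun M _ _ A hA => by
    obtain ⟨A, hok⟩ := A
    cases A with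
    | base π k m B =>
      exact ⟨⟨.base (e :: π) k m B, ⟨hA.symm, hok⟩⟩, (fld_base_cons e π k m B).symm⟩
    | push π k m p A =>
      exact ⟨⟨.push (e :: π) k m p A, ⟨⟨hA.symm, hok.1⟩, hok.2⟩⟩,
        (fld_push_cons e π k m p A).symm⟩

end Vale.Agent.P193.Core.Inst
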